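import Crest.Agent.X212.Lat93.Nv
import Crest.Agent.X212.H7.Defs
import Crest.Agent.X212.Cyl58.Hp
import Crest.Agent.X212.Sep15.CmL

/-!
# X212 / Lat93, part Root (helper93): from `H7.Out` to the counts

* `exists_sline` : smooth lines of every type on a Dehn filling;
* `root` : the closed manifold of `H7.Out` has `b⁺ ≥ 2` and satisfies the hypotheses of `nv`.
-/

set_option autoImplicit false
set_option linter.unusedSectionVars false

open Set Filter Topology Function Matrix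
open scoped ContDiff Manifold Real InnerProductSpace
open Crest.Agent.R208.F Crest.Agent.X212.Dr59 Crest.Agent.X212.Int54 Crest.Agent.X212.Cyl58
  Crest.Agent.X212.Line51 Crest.Agent.X212.Bb31 Crest.Agent.X212.Eq82 Crest.Agent.X212.Pj41
open Crest.Agent.X212.Sep15 (EE IR CM End Jo EXT Pl)

noncomputable section

namespace Crest.Agent.X212.Lat93

/-- the projector of a unit vector in `ℝ³` -/
def hm (v : EE 3) : Matrix (Fin 2) (Fin 2) ℂ :=
  !![(1 + v 0) / 2, (v 1 + v 2 * .I) / 2; (v 1 - v 2 * .I) / 2, (1 - v 0) / 2]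

theorem tr_hm (v w : EE 3) : (hm v * hm w).trace = ((1 + ⟪v, w⟫_ℝ) / 2 : ℝ) := by
  simp [hm, trace_fin_two, PiLp.inner_apply, Fin.sum_univ_three]
  linear_combination (-(v 2 * w 2 : ℂ) / 2) * Complex.I_sq

theorem prj_hm {v : EE 3} (h : ‖v‖ = 1) : Prj (hm v) := by
  have e : (v 0 : ℂ) ^ 2 + v 1 ^ 2 + v 2 ^ 2 = 1 := by
    have := EuclideanSpace.real_norm_sq_eq v
    rw [h, Fin.sum_univ_three, one_pow] at this
    exact_mod_cast this.symm
  constructor <;> ext i j <;> fin_cases i <;> fin_cases j <;> simp [hm, mul_apply, Fin.sum_univ_two]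
  · ring
  · linear_combination e / 4 - (v 2 : ℂ) ^ 2 / 4 * Complex.I_sq
  · ring
  · ring
  · linear_combination e / 4 - (v 2 : ℂ) ^ 2 / 4 * Complex.I_sq

/-- smoothing of a continuous line in `ℂ²` -/
theorem exists_near {M : Type} [TopologicalSpace M] [ChartedSpace (EE 3) M] [IsManifold (𝓡 3) ∞ M]
    [CompactSpace M] [T2Space M] {p : M → Matrix (Fin 2) (Fin 2) ℂ} (h : Pic56.CLine p) :
    ∃ q, Pl (𝓡 3) q univ ∧ ∀ y, q y * p y ≠ 0 := by
  let s : M → EE 3 := fun y => !₂[2 * (p y 0 0).re - 1, 2 * (p y 0 1).re, 2 * (p y 0 1).im]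
  have c := h.cont
  have hs : ∀ y, p y = hm (s y) ∧ ‖s y‖ = 1 := fun y => by
    obtain ⟨e, h1, h2⟩ := h.rk y
    have h3 := congrArg Complex.re h1
    simp [dotProduct, Fin.sum_univ_two] at h3
    constructor
    · ext i j
      fin_cases i <;> fin_cases j <;> simp [hm, s, h2, vecMulVec_apply, Complex.ext_iff] <;>
        (try constructor) <;> linarith
    · rw [← sq_eq_sq₀ (norm_nonneg _) zero_le_one, EuclideanSpace.real_norm_sq_eq, Fin.sum_univ_three]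
      simp [s, h2, vecMulVec_apply]
      linear_combination 4 * ((e 0).re * (e 0).re + (e 0).im * (e 0).im) * h3
  obtain ⟨t, t1, t2⟩ := Pic56.exists_smooth_sec (I := 𝓡 3) (Q := fun _ => LinearMap.id) (s := s)
    (fun _ => contMDiff_const) (fun _ _ => rfl) (by fun_prop) (fun _ => rfl) continuous_const
    fun _ => one_pos
  have k : ∀ y, 0 < ⟪t y, s y⟫_ℝ := fun y => by
    have := (abs_real_inner_le_norm (t y - s y) (s y)).trans_lt
      (by rw [(hs y).2, mul_one]; exact (t2 y).2)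
    rw [inner_sub_left, real_inner_self_eq_norm_sq, (hs y).2] at this
    linarith [(abs_lt.1 this).1]
  have k0 : ∀ y, t y ≠ 0 := fun y e => by simpa [e] using k y
  have sm : ∀ y i, FSm (𝓡 3) (fun y => (((‖t y‖⁻¹ • t y) i : ℝ) : ℂ)) y := fun y i =>
    FSm.ofReal ((EuclideanSpace.proj (𝕜 := ℝ) i).contDiff.contDiffAt.comp_contMDiffAt
      (((((contDiffAt_norm ℝ (k0 y)).inv (norm_ne_zero_iff.2 (k0 y))).smul
        contDiffAt_id).comp_contMDiffAt (t1 y))))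
  refine ⟨fun y => hm (‖t y‖⁻¹ • t y), ⟨fun y _ i j => ?_, fun y _ => prj_hm (norm_smul_inv_norm
    (k0 y)), fun y _ => by simp [hm, trace_fin_two]; ring⟩, fun y e => ?_⟩
  · have c : ∀ z : ℂ, FSm (𝓡 3) (fun _ : M => z) y := fun _ => contMDiffAt_const
    fin_cases i <;> fin_cases j
    exacts [FSm.mul' ((c _).add (sm y 0)) (c _), FSm.mul' ((sm y 1).add ((sm y 2).mul' (c _))) (c _),
      FSm.mul' ((sm y 1).sub ((sm y 2).mul' (c _))) (c _), FSm.mul' ((c _).sub (sm y 0)) (c _)]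
  · have := tr_hm (‖t y‖⁻¹ • t y) (s y)
    rw [← (hs y).1, e, trace_zero, real_inner_smul_left, eq_comm, Complex.ofReal_eq_zero] at this
    linarith [mul_pos (inv_pos.2 (norm_pos_iff.2 (k0 y))) (k y)]

open Crest.GeometryTopology.DehnSurgery Ext52 Pic56 in
/-- smooth lines of every type -/
theorem exists_sline (t : Tube) (σ : FillingData) (j : ℤ) :
    ∃ q : Fill t σ → Matrix (Fin 2) (Fin 2) ℂ, Pl (𝓡 3) q univ ∧ FType t σ q j := by
  obtain ⟨p, h1, h2⟩ := exists_line t σ j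
  obtain ⟨q, h3, h4⟩ := exists_near h1
  refine ⟨q, h3, h2.of_hom h1.rk (fun y => Rk1.of_trace (h3.prj y trivial).herm
    (h3.prj y trivial).idem (h3.tr y trivial)) ((continuous_iff_continuousAt.2 fun y =>
      (h3.sm y trivial).continuousAt).mul h1.cont) (fun y => ?_) h4⟩
  rw [Pi.mul_apply, ← Matrix.mul_assoc, (h3.prj y trivial).idem, Matrix.mul_assoc, (h1.rk y).idem]

variable {Y : CM 3} {o : Fm 3 Y} {Φ : Y → Circle} {T : Ty Y}

/-- the counts of the lines in the classes `w + N φ`, for every model of `X` -/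
def Cts {X : CM 4} (O : Fm 4 X) (n : Y × ℝ → X) (hT : Typ (𝓡 3) T) (o : Fm 3 Y) (u : Y → Circle) :
    Prop :=
  ∀ (E : Type) [NormedAddCommGroup E] [NormedSpace ℝ E] [FiniteDimensional ℝ E] [MeasurableSpace E]
    [BorelSpace E] (H : Type) [TopologicalSpace H] (I : ModelWithCorners ℝ E H) [I.Boundaryless]
    (M : Type) [TopologicalSpace M] [ChartedSpace H M] [IsManifold I ∞ M] [MeasurableSpace M]
    [BorelSpace M] [SecondCountableTopology M] [T2Space M] [CompactSpace M] (ι : Type) [Fintype ι]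
    [DecidableEq ι] (ψ : M ≃ₘ^∞⟮I, 𝓡 4⟯ X) (B : Bk I M ι),
    SameOn (Num57.vol B.F B.o) (pm I (𝓡 4) ψ O) univ → (2 ≤ Num57.bp B.ok.ori → NV B) →
    ∃ u', (u' = u ∨ u' = u⁻¹) ∧ ∃ w, (w, 1) ∈ LS (𝓡 4) hT (sc0 n) ∧
      0 < integ (𝓡 3) o (pm (𝓡 3) (𝓡 4) (sc0 n) w * ang (𝓡 3) u') ∧ ∃ (K₀ : H2 I M) (N₀ : ℕ),
      ∀ N ≥ N₀, ∀ g φ, Ph n g (ang (𝓡 3) u') φ → ∀ (κ : Type) [Fintype κ] [DecidableEq κ]
        (L : Ln E M κ), L.On I univ → Ex I univ (L.F I - pm I (𝓡 4) ψ (w + (N : ℝ) • φ)) →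
        Cnt B L K₀ ∧ 0 < B.Q (K₀ - lcl I L) (K₀ - lcl I L) ∧
          ∃ j : ℕ, 6 * (-B.Q (K₀ - lcl I L) (K₀ - lcl I L) / 4) + B.d0 L + 2 * j = 0

/-- **the root** -/
theorem root [Nonempty Y] (h : H7.Out Sep15.Q Y o Φ) (ho : Ori (𝓡 3) o) (hT : Typ (𝓡 3) T) {κ : Type}
    [Fintype κ] {l : Y → Matrix κ κ ℂ} (hl : Pl (𝓡 3) l univ) (t : T κ l 1) :
    ∃ (C₁ C₂ : End Y) (X : CM 4) (J : Jo C₁ C₂ X) (O : Fm 4 X) (u : Y → Circle), Sep15.Q Y C₁ ∧
      Sep15.Q Y C₂ ∧ Ori (𝓡 4) O ∧ Cy o O (J.i₁ ∘ C₁.j) ∧ ContMDiff (𝓡 3) (𝓡 1) ∞ u ∧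
      Ex (𝓡 3) univ (ang (𝓡 3) u - ang (𝓡 3) Φ) ∧ Cts O (J.i₁ ∘ C₁.j) hT o u := by
  obtain ⟨C₁, C₂, X, J, O, β, u, q₁, q₂, hO, hc, hu, e, hβ, hi, hb⟩ := h
  refine ⟨C₁, C₂, X, J, O, u, q₁, q₂, hO, hc, hu, e, ?_⟩
  intro E _ _ _ _ _ H _ I _ M _ _ _ _ _ _ _ _ ι _ _ ψ B hs hm
  obtain ⟨w, a⟩ := exists_one (hT := hT) J q₁.1 q₂.1 hl t
  have := q₁.2.1
  have := q₂.2.1
  have := J.conn
  exact nv ψ hO hs (J.o₁.comp C₁.oe) ho hc hu hb hβ hi.ne' a (hm ((hpJo _ _ _ _ J O hO q₁.2.2 q₂.2.2).trans_eq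
    (Num57.b_diffeo (by simp [B.ok.h4]) hO B.ok.ori ψ hs).1.symm))

end Crest.Agent.X212.Lat93
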