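import Crest.Agent.X212.Lat93.Typ
import Crest.Agent.X212.Bb31.Defs
import Crest.Agent.X212.Bb31.Push

/-!
# X212 / Lat93, part Main (helper93): the big ball property with lines

* `BBR.smul`, `BBR.neg`;  `lat` : `BBR` and a line of type one give integral classes;
* `Ph.z2`, `Ph.sq`, `Ph.ex`, `pp_add` : the dual of the surface;  `clutch` : its line;
* `bb` : everything together.
-/

set_option autoImplicit false
set_option linter.unusedSectionVars false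

open Set Filter Topology Function
open scoped ContDiff Manifold
open Crest.Agent.R208.F Crest.Agent.X212.Dr59 Crest.Agent.X212.Int54 Crest.Agent.X212.Cyl58
  Crest.Agent.X212.Line51 Crest.Agent.X212.Bb31
open Crest.Agent.X212.Sep15 (EE IR CM)
open Crest.Agent.X212.Sym24 (pu dt sl dT)

noncomputable section

namespace Crest.Agent.X212.Lat93

variable {Y : CM 3} {X : CM 4} {O : Fm 4 X} {n : Y × ℝ → X} {β τ τ' : Fm 3 Y} {g g' : ℝ → ℝ}
  {φ φ' : Fm 4 X}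

/-- the slice of the neck -/
abbrev sc0 (n : Y × ℝ → X) : Y → X := fun y => n (y, 0)

theorem cm_sc0 (hn : ContMDiff (IR 3) (𝓡 4) ∞ n) : ContMDiff (𝓡 3) (𝓡 4) ∞ (sc0 n) :=
  hn.comp (contMDiff_id.prodMk contMDiff_const)

theorem sl_pm (hn : ContMDiff (IR 3) (𝓡 4) ∞ n) (a : Fm 4 X) :
    sl 0 (pm (IR 3) (𝓡 4) n a) = pm (𝓡 3) (𝓡 4) (sc0 n) a := funext fun y => by
  rw [← Sym24.pm_inl (I := 𝓡 3)]
  exact pm_comp ((hn _).mdifferentiableAt ne0)
    ((contMDiffAt_id.prodMk contMDiffAt_const : ContMDiffAt _ _ ∞ _ _).mdifferentiableAt ne0)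

theorem sl_smul (r : ℝ) (a : Fm 4 X) :
    sl 0 (pm (IR 3) (𝓡 4) n (r • a)) = r • sl 0 (pm (IR 3) (𝓡 4) n a) := by
  rw [pm_smul]
  exact funext fun y => map_smul Sym24.dn r (pm (IR 3) (𝓡 4) n a (y, 0))

theorem dM_smul' (r : ℝ) {a : Fm 4 X} (h : F1 a) : dM (𝓡 4) (r • a) = r • dM (𝓡 4) a :=
  funext fun x => dM_smul ne0 r (h.sm x trivial)

theorem Ph.neg (h : Ph n g τ φ) : Ph n g (-τ) (-φ) :=
  ⟨h.sm, h.sp, h.one, fun p => by
    rw [pm_neg, Pi.neg_apply, h.eq, pu, pu, Pi.neg_apply, map_neg, mul_neg, smul_neg],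
    fun x hx => by rw [Pi.neg_apply, h.off x hx, neg_zero]⟩

theorem bbr_aux (h : BBR O n β τ) {s e : ℝ} (hs : 0 < s * e) {τ' : Fm 3 Y}
    (k : ∀ g φ, Ph n g τ φ → Ph n g τ' (e • φ)) : BBR O n (s • β) τ' := fun ι _ ζ hζ hβ => by
  have s0 : s ≠ 0 := left_ne_zero_of_mul hs.ne'
  obtain ⟨v, la, g, φ, h1, h2, h3, h4, h5, h6⟩ := h ι (fun q => s⁻¹ • ζ q) (fun q => (hζ q).smul _)
    fun q => by simpa only [sl_smul, smul_sub, inv_smul_smul₀ s0] using (hβ q).smul s⁻¹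
  have e1 : ∀ q, ζ q + s • v - dM (𝓡 4) (s • la q) = s • (s⁻¹ • ζ q + v - dM (𝓡 4) (la q)) :=
    fun q => by rw [dM_smul' s (h3 q), smul_sub, smul_add, smul_inv_smul₀ s0]
  refine ⟨s • v, fun q => s • la q, g, e • φ, h1.smul s, by rw [sl_smul, h2, smul_zero],
    fun q => ⟨(h3 q).sm.smul s, (h3 q).dg.smul s⟩, k g φ h4, fun q r x hx => ?_, fun q x => ?_⟩
  · simp only [e1, smul_mul_smul_comm, rat_smul]
    exact mul_pos (mul_self_pos.2 s0) (h5 q r x hx)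
  · simp only [e1, smul_mul_smul_comm, rat_smul]
    exact mul_nonneg hs.le (h6 q x)

theorem BBR.smul (h : BBR O n β τ) {s : ℝ} (hs : 0 < s) : BBR O n (s • β) τ :=
  bbr_aux h (e := 1) (by simpa) fun _ _ k => by simpa using k

theorem BBR.smul_neg (h : BBR O n β τ) {s : ℝ} (hs : s < 0) : BBR O n (s • β) (-τ) :=
  bbr_aux h (e := -1) (by simpa) fun _ _ k => by simpa using Ph.neg k

/-- convex combinations -/
theorem pp_conv {ι κ : Type} [Fintype κ] {w : ι × κ → Fm 4 X} (h : PP O w univ) {c : κ → ℝ}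
    (h0 : ∀ a, 0 ≤ c a) {a₀ : κ} (h1 : 0 < c a₀) : PP O (fun q => ∑ a, c a • w (q, a)) univ :=
  fun q r x hx => by
    simp only [Finset.sum_mul_sum, smul_mul_smul_comm, rat_sum, rat_smul, Finset.sum_apply]
    have k := fun a b => mul_nonneg (mul_nonneg (h0 a) (h0 b)) (h (q, a) (r, b) x hx).le
    exact Finset.sum_pos' (fun a _ => Finset.sum_nonneg fun b _ => k a b) ⟨a₀, Finset.mem_univ _,
      Finset.sum_pos' (fun b _ => k a₀ b) ⟨a₀, Finset.mem_univ _,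
        mul_pos (mul_pos h1 h1) (h (q, a₀) (r, a₀) x hx)⟩⟩

variable {T : Ty Y} {hT : Typ (𝓡 3) T}

/-- **`LAT`** -/
theorem lat (h : BBR O n β τ) (hn : ContMDiff (IR 3) (𝓡 4) ∞ n) {w₀ : Fm 4 X}
    (a : (w₀, 1) ∈ LS (𝓡 4) hT (sc0 n)) (hβ : Ex (𝓡 3) univ (pm (𝓡 3) (𝓡 4) (sc0 n) w₀ - β))
    (h0 : ¬Ex (𝓡 3) univ β) {ι : Type} [Finite ι] {η : ι → Fm 4 X} (hη : ∀ q, Z2 (η q))
    (eη : ∀ q, Ex (𝓡 3) univ (pm (𝓡 3) (𝓡 4) (sc0 n) (η q))) :
    ∃ (w : Fm 4 X) (om : ι → Fm 4 X) (g : ℝ → ℝ) (φ : Fm 4 X), (w, 1) ∈ LS (𝓡 4) hT (sc0 n) ∧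
      (∀ q, Z2 (om q)) ∧ (∀ q, Ex (𝓡 4) univ (om q - (w + η q))) ∧ PP O om univ ∧ Ph n g τ φ ∧
      ∀ q x, 0 ≤ rat O (om q * φ) x := by
  have hι := cm_sc0 hn
  obtain ⟨m, b, hb, hs⟩ := gens hι a fun k => h0 (by simpa using k.sub hβ)
  let B : Option (Fin m) → Fm 4 X := fun a => a.elim 0 fun i => (m + 1 : ℝ) • b i
  have hB : ∀ a, Z2 (B a) ∧ Ex (𝓡 3) univ (pm (𝓡 3) (𝓡 4) (sc0 n) (B a)) := by
    rintro (_ | i)
    · exact ⟨Cl.zero, by simpa [B] using Ex.zero⟩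
    · exact ⟨(LS.cl (hb i)).smul _, by simpa [B, pm_smul] using (LS.ex0 hι (hb i)).smul _⟩
  have hz : ∀ z : ι × Option (Fin m), Z2 (w₀ + η z.1 - B z.2) := fun z =>
    ((LS.cl a).add (hη _)).sub (hB _).1
  obtain ⟨v, la, g, φ, h1, h2, h3, h4, h5, h6⟩ := h _ _ hz fun z => by
    rw [sl_pm hn, pm_sub, pm_add, sub_right_comm, add_sub_right_comm]
    exact (hβ.add (eη _)).sub (hB _).2
  obtain ⟨t, ht⟩ := hs v h1 (by rw [← sl_pm hn, h2]; exact Ex.zero)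
  have m0 : (0 : ℝ) < m + 1 := by positivity
  let c : Option (Fin m) → ℝ := fun a =>
    a.elim (1 - ∑ i, Int.fract (t i) / (m + 1)) fun i => Int.fract (t i) / (m + 1)
  have c0 : 0 < c none := by
    refine sub_pos.2 ?_
    rw [← Finset.sum_div, div_lt_one m0]
    exact ((Finset.sum_le_card_nsmul _ _ 1 fun i _ => (Int.fract_lt_one _).le).trans_lt (by simp))
  have c1 : ∀ a, 0 ≤ c a := by
    rintro (_ | i)
    exacts [c0.le, div_nonneg (Int.fract_nonneg _) m0.le]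
  have c2 : ∑ a, c a = 1 := by simp [c, Fintype.sum_option]
  have c3 : ∑ a, c a • B a = ∑ i, Int.fract (t i) • b i := by
    simp [c, B, Fintype.sum_option, smul_smul, m0.ne']
  refine ⟨w₀ + ∑ i, ⌊t i⌋ • b i, fun q => ∑ a, c a • (w₀ + η q - B a + v - dM (𝓡 4) (la (q, a))),
    g, φ, ?_, fun q => cl_sum fun a _ => (((hz (q, a)).add h1).sub
      (cl_dM isOpen_univ (h3 _).sm (h3 _).dg)).smul _, fun q => ?_, pp_conv h5 c1 c0, h4,
    fun q x => ?_⟩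
  · convert add_mem a (sum_mem (t := Finset.univ) fun i _ => zsmul_mem (hb i) ⌊t i⌋) using 1
    simp [Prod.ext_iff, Prod.fst_sum, Prod.snd_sum]
  · convert ht.sub (ex_sum (s := Finset.univ) fun a _ => (ex_dM (h3 (q, a)).sm).smul (c a)) using 1
    have : ∑ i, t i • b i = ∑ i, ⌊t i⌋ • b i + ∑ i, Int.fract (t i) • b i := by
      simp only [← Finset.sum_add_distrib, ← Int.cast_smul_eq_zsmul ℝ, ← add_smul,
        Int.floor_add_fract]
    simp only [smul_sub, smul_add, Finset.sum_sub_distrib, Finset.sum_add_distrib,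
      ← Finset.sum_smul, c2, c3, one_smul, this]
    abel
  · simp only [Finset.sum_mul, smul_mul_assoc, rat_sum, rat_smul, Finset.sum_apply]
    exact Finset.sum_nonneg fun a _ => mul_nonneg (c1 a) (h6 (q, a) x)

/-! ### the dual of the surface -/

theorem d_fpu {k : ℝ → ℝ} (hk : ContDiff ℝ ∞ k) {a : Fm 3 Y} (ha : Sm (𝓡 3) univ a) (p : Y × ℝ) :
    dM (IR 3) ((fun p : Y × ℝ => k p.2) • pu a) p =
      deriv k p.2 • (dT (EE 3) * pu a p) + k p.2 • pu (dM (𝓡 3) a) p := by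
  rw [dM_fsmul ne0 (g := fun p : Y × ℝ => k p.2)
    ((hk.contMDiff.comp contMDiff_snd p).mdifferentiableAt ne0) (Sym24.smAt_pu (ha _ trivial)),
    Sym24.df_comp_snd (hk.differentiable ne0 _).hasDerivAt, Sym24.dM_pu (ha _ trivial),
    smul_mul_assoc]

theorem sm_fpu {k : ℝ → ℝ} (hk : ContDiff ℝ ∞ k) {a : Fm 3 Y} (ha : Sm (𝓡 3) univ a) :
    Sm (IR 3) univ ((fun p : Y × ℝ => k p.2) • pu a) :=
  Sm.fsmul (fun p _ => hk.contMDiff.comp contMDiff_snd p) fun _ _ => Sym24.smAt_pu (ha _ trivial)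

theorem Ph.zero (h : Ph n g τ φ) {t : ℝ} (ht : t ∉ Ioo (-1 : ℝ) 1) : g t = 0 :=
  image_eq_zero_of_notMem_tsupport fun k => ht (h.sp k)

variable (hn : IsOE (IR 3) (𝓡 4) n)
include hn

theorem ext_neck {a b : Fm 4 X} (h : ∀ p, pm (IR 3) (𝓡 4) n a p = pm (IR 3) (𝓡 4) n b p)
    (h' : ∀ x ∉ range n, a x = b x) : a = b := funext fun x => by
  by_cases hx : x ∈ range n
  · obtain ⟨p, rfl⟩ := hx
    exact eq_of_pm (hn.loc p) (h p)
  · exact h' x hx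

theorem exists_neck {a : Y × ℝ → Ext (EE 3 × ℝ)} (h : ∀ p : Y × ℝ, p.2 ∉ Icc (-1 : ℝ) 1 → a p = 0) :
    ∃ A : Fm 4 X, (∀ p, pm (IR 3) (𝓡 4) n A p = a p) ∧
      (∀ x ∉ n '' (univ ×ˢ Icc (-1) 1), A x = 0) ∧ (Sm (IR 3) univ a → Sm (𝓡 4) univ A) ∧
      ∀ k, Cl (IR 3) k univ a → Cl (𝓡 4) k univ A :=
  let ⟨A, h1, h2, h3, _, h4⟩ := (OE.of_oe hn).exists_push (isCompact_univ.prod isCompact_Icc)
    (subset_univ _) fun p _ hp => h p fun k => hp ⟨trivial, k⟩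
  ⟨A, fun p => h1 p trivial, h2, h3, h4⟩

theorem Ph.z2 (h : Ph n g τ φ) (hτ : Cl (𝓡 3) 1 univ τ) : Z2 φ := by
  have s : Sm (IR 3) univ (dt (EE 3) Y * pu τ) := fun p _ =>
    (Sym24.smAt_dt p).mul (Sym24.smAt_pu (hτ.sm _ trivial))
  have c : ∀ p : Y × ℝ, ContMDiffAt (IR 3) 𝓘(ℝ, ℝ) ∞ (fun p : Y × ℝ => g p.2) p :=
    h.sm.contMDiff.comp contMDiff_snd
  obtain ⟨A, h1, h2, -, h4⟩ := exists_neck hn
    (a := (fun p : Y × ℝ => g p.2) • (dt (EE 3) Y * pu τ)) fun p hp => by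
      rw [Pi.smul_apply', Ph.zero h fun k => hp (Ioo_subset_Icc_self k), zero_smul]
  rw [ext_neck hn (fun p => (h.eq p).trans (h1 p).symm) fun x hx =>
    (h.off x hx).trans (h2 x fun k => hx (image_subset_range _ _ k)).symm]
  refine h4 2 ⟨s.fsmul fun p _ => c p, Dg.fsmul _ fun p _ =>
    Sym24.isDeg_dT_mul (Sym24.isDeg_up (hτ.dg _ trivial)), fun p _ => ?_⟩
  rw [dM_fsmul ne0 ((c p).mdifferentiableAt ne0) (s p trivial),
    Sym24.df_comp_snd (h.sm.differentiable ne0 _).hasDerivAt,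
    Sym24.dM_dt_mul (Sym24.smAt_pu (hτ.sm _ trivial)), Sym24.dM_pu (hτ.sm _ trivial), pu,
    hτ.cl _ trivial, smul_mul_assoc, Pi.mul_apply, dt, Sym24.dT_dT]
  simp

theorem Ph.sq (h : Ph n g τ φ) (h' : Ph n g' τ' φ') (hτ : Dg 1 univ τ) : φ * φ' = 0 :=
  ext_neck hn (fun p => by
    rw [pm_mul, Pi.mul_apply, h.eq, h'.eq, smul_mul_smul_comm, ← mul_assoc, pu,
      ← Sym24.comm2 (Sym24.isDeg_dT_mul (Sym24.isDeg_up (hτ _ trivial))), Sym24.dT_dT]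
    simp) fun x hx => by rw [Pi.mul_apply, h.off x hx, zero_mul]; rfl

/-- the class of `φ` depends only on the class of `τ` -/
theorem Ph.ex (h : Ph n g τ φ) (h' : Ph n g' τ' φ') (hτ : Cl (𝓡 3) 1 univ τ)
    (hτ' : Cl (𝓡 3) 1 univ τ') {c : ℝ} (e : Ex (𝓡 3) univ (τ - c • τ')) :
    Ex (𝓡 4) univ (φ - c • φ') := by
  obtain ⟨b, b1, -, b3⟩ := e.deg (k := 0) (hτ.dg.sub (hτ'.dg.smul c))
  have hc : Continuous (g - g') := h.sm.continuous.sub h'.sm.continuous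
  have z : ∀ t ∉ Ioo (-1 : ℝ) 1, (g - g') t = 0 := fun t ht => by
    rw [Pi.sub_apply, Ph.zero h ht, Ph.zero h' ht, sub_zero]
  let k : ℝ → ℝ := fun t => ∫ x in (-1)..t, (g - g') x
  have k1 : deriv k = g - g' := funext fun t => hc.deriv_integral _ _ _
  have k2 : ContDiff ℝ ∞ k := contDiff_infty_iff_deriv.2
    ⟨fun t => (hc.integral_hasStrictDerivAt _ t).hasDerivAt.differentiableAt, k1 ▸ h.sm.sub h'.sm⟩
  have k3 : ∀ t ∉ Icc (-1 : ℝ) 1, k t = 0 := fun t ht => by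
    rcases not_and_or.1 ht with a | a
    · exact (intervalIntegral.integral_congr (g := 0) fun x hx => z x fun k =>
        (uIcc_of_ge (not_le.1 a).le ▸ hx).2.not_gt k.1).trans (by simp)
    · have i : ∀ {g τ φ}, Ph n g τ φ → MeasureTheory.Integrable g := fun h =>
        h.sm.continuous.integrable_of_hasCompactSupport
          (isCompact_Icc.of_isClosed_subset (isClosed_tsupport _) (h.sp.trans Ioo_subset_Icc_self))
      refine (intervalIntegral.integral_eq_integral_of_support_subset fun x hx => ?_).trans ?_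
      · have := not_not.1 (mt (z x) hx)
        exact ⟨this.1, (this.2.trans (not_le.1 a)).le⟩
      · rw [MeasureTheory.integral_sub' (i h) (i h'), h.one, h'.one, sub_self]
  have s1 := sm_fpu k2 (hτ'.sm.smul c)
  have s2 := sm_fpu h.sm b1
  have s3 : Sm (IR 3) univ (dt (EE 3) Y * ((fun p : Y × ℝ => g p.2) • pu b)) :=
    fun p _ => (Sym24.smAt_dt p).mul (s2 p trivial)
  obtain ⟨A, h1, h2, h3, -⟩ := exists_neck hn (a := (fun p : Y × ℝ => k p.2) • pu (c • τ') -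
    dt (EE 3) Y * ((fun p : Y × ℝ => g p.2) • pu b)) fun p hp => by
      simp [k3 _ hp, Ph.zero h fun k => hp (Ioo_subset_Icc_self k)]
  have h4 := h3 (s1.sub s3)
  refine ⟨A, h4, fun x _ => congrFun (ext_neck hn (fun p => ?_) fun x hx => ?_) x⟩
  · rw [pm_dM (hn.contMDiff p) (h4 _ trivial) (.of_forall h1), dM_sub ne0 (s1 p trivial)
      (s3 p trivial), Sym24.dM_dt_mul (s2 p trivial), d_fpu k2 (hτ'.sm.smul c), d_fpu h.sm b1, k1,
      pm_sub, pm_smul, Pi.sub_apply, Pi.sub_apply, Pi.smul_apply, h.eq, h'.eq]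
    simp only [pu, b3 _ trivial, (hτ'.smul c).cl _ trivial, Pi.sub_apply, Pi.smul_apply, map_sub,
      map_smul, map_zero, mul_add, mul_sub, mul_smul_comm, Sym24.dT_dT]
    module
  · rw [Pi.sub_apply, Pi.smul_apply, h.off x hx, h'.off x hx, smul_zero, sub_zero,
      dM_congr (b := 0) (mem_of_superset (((isCompact_univ.prod isCompact_Icc).image
        hn.continuous).isClosed.isOpen_compl.mem_nhds fun k => hx (image_subset_range _ _ k)) h2),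
      dM_zero]
    rfl

/-- adding multiples of the dual of the surface -/
theorem pp_add {ι : Type} {om : ι → Fm 4 X} (h : PP O om univ) (hφ : Ph n g τ φ)
    (hτ : Cl (𝓡 3) 1 univ τ) (h0 : ∀ q x, 0 ≤ rat O (om q * φ) x) {N : ι → ℝ} (hN : ∀ q, 0 ≤ N q) :
    PP O (fun q => om q + N q • φ) univ := fun q r x hx => by
  have e : φ * om r = om r * φ :=
    funext fun x => (Sym24.comm2 ((Ph.z2 hn hφ hτ).dg x trivial) _).symm
  simp only [add_mul, mul_add, smul_mul_assoc, mul_smul_comm, Ph.sq hn hφ hφ hτ.dg, e, rat_add,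
    rat_smul, smul_zero, add_zero]
  exact add_pos_of_pos_of_nonneg (add_pos_of_pos_of_nonneg (h q r x hx)
    (mul_nonneg (hN q) (h0 r x))) (mul_nonneg (hN r) (h0 q x))

/-- **the line of the surface**, concentrated in the slab `a ≤ t ≤ b` -/
theorem clutch {u : Y → Circle} (hu : ContMDiff (𝓡 3) (𝓡 1) ∞ u) {k : ℝ → ℝ} (hk : ContDiff ℝ ∞ k)
    {a b : ℝ} (hab : a ≤ b) (ka : ∀ t ≤ a, k t = 0) (kb : ∀ t, b ≤ t → k t = 1) :
    ∃ (L : Ln (EE 4) X (Unit ⊕ Unit)) (s s' : X → Matrix (Unit ⊕ Unit) Unit ℂ) (α : Fm 4 X),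
      L.On (𝓡 4) univ ∧ L.Fr (𝓡 4) s 0 (n '' (univ ×ˢ Icc a b))ᶜ ∧ L.Fr (𝓡 4) s' α (range n) ∧
      (∀ p, pm (IR 3) (𝓡 4) n α p = k p.2 • pu (ang (𝓡 3) u) p) ∧
      (∀ p, pm (IR 3) (𝓡 4) n (L.F (𝓡 4)) p = deriv k p.2 • (dT (EE 3) * pu (ang (𝓡 3) u) p)) ∧
      ∀ x ∉ n '' (univ ×ˢ Icc a b), L.F (𝓡 4) x = 0 := by
  have cu : Cl (𝓡 3) 1 univ (ang (𝓡 3) u) := cl_ang fun y _ => hu y
  have o := OE.of_oe hn
  obtain ⟨α, h1, -⟩ := o.exists_pf (I := 𝓡 4) ((fun p : Y × ℝ => k p.2) • pu (ang (𝓡 3) u))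
  have h2 := o.sm h1 (sm_fpu hk cu.sm)
  have h3 := o.dg h1 (Dg.fsmul _ fun p _ => Sym24.isDeg_up (cu.dg _ trivial))
  rw [image_univ] at h2 h3
  have hU := ((isCompact_univ.prod (isCompact_Icc (a := a) (b := b))).image
    hn.continuous).isClosed.isOpen_compl
  let G : Y × ℝ → Circle := fun p => if p.2 < a then 1 else (u p.1)⁻¹
  have hG : ∀ p : Y × ℝ, p.2 ∉ Icc a b → CSm (IR 3) G p ∧
      k p.2 • pu (ang (𝓡 3) u) p + ang (IR 3) G p = 0 := fun p hp => by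
    rcases not_and_or.1 hp with c | c
    · have e : G =ᶠ[𝓝 p] 1 := (continuous_snd.tendsto p).eventually (Iio_mem_nhds (not_le.1 c))
        |>.mono fun q hq => if_pos hq
      exact ⟨contMDiffAt_const.congr_of_eventuallyEq e, by
        rw [ang_congr e, ka _ (not_le.1 c).le]; simp⟩
    · have e : G =ᶠ[𝓝 p] (u ∘ Prod.fst)⁻¹ := (continuous_snd.tendsto p).eventually
        (Ioi_mem_nhds (not_le.1 c)) |>.mono fun q hq => if_neg (hab.trans hq.le).not_gt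
      have f : CSm (IR 3) (u ∘ Prod.fst) p := (hu _).comp p contMDiffAt_fst
      exact ⟨f.inv.congr_of_eventuallyEq e, by
        rw [ang_congr e, ang_inv f, kb _ (not_le.1 c).le, one_smul,
          ← pm_ang (hu _) mdifferentiableAt_fst, Sym24.pm_fst, add_neg_cancel]⟩
  have eG : extend n G 1 ∘ n = G := extend_comp hn.inj _ _
  have k1 : ∀ p, n p ∈ (n '' (univ ×ˢ Icc a b))ᶜ → p.2 ∉ Icc a b := fun p hp c =>
    hp ⟨p, ⟨trivial, c⟩, rfl⟩
  have k2 : ∀ p, n p ∈ (n '' (univ ×ˢ Icc a b))ᶜ → CSm (𝓡 4) (extend n G 1) (n p) := fun p hp =>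
    hn.contMDiffAt_iff.1 (eG.symm ▸ (hG p (k1 p hp)).1)
  obtain ⟨L, s, s', l1, l2, l3, -⟩ := exists_two (L := triv 0) (L' := triv α) hU hn.isOpen_range
    (eq_univ_of_forall fun x => (em _).symm.imp_right fun c => image_subset_range _ _ c)
    (on_triv Sm.zero Dg.zero) (on_triv h2 h3) (iso_sc (g := extend n G 1)
      (by rintro _ ⟨c, p, rfl⟩; exact k2 p c) (by
        rintro _ ⟨c, p, rfl⟩
        refine (zero_of_pm (a := α + ang (𝓡 4) (extend n G 1)) (hn.loc p) ?_).symm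
        rw [pm_add, Pi.add_apply, h1 p trivial,
          pm_ang (k2 p c) ((hn.contMDiff p).mdifferentiableAt ne0), eG]
        exact (hG p (k1 p c)).2))
  refine ⟨L, s, s', α, l1, l2, l3, fun p => h1 p trivial, fun p => ?_, fun x hx => ?_⟩
  · rw [pm_congr_right (l3.F_fr hn.isOpen_range (l1.sa.mono (subset_univ _)) ⟨p, rfl⟩),
      pm_dM (hn.contMDiff p) (h2 _ ⟨p, rfl⟩) (.of_forall fun q => h1 q trivial), d_fpu hk cu.sm,
      pu, pu, cu.cl _ trivial, map_zero, smul_zero, add_zero]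
  · rw [l2.F_fr hU (l1.sa.mono (subset_univ _)) hx, dM_zero]; rfl

/-- the line of the surface has type zero and its curvature is a dual of the surface -/
theorem exists_dual (hT : Typ (𝓡 3) T) {u : Y → Circle} (hu : ContMDiff (𝓡 3) (𝓡 1) ∞ u) {a b : ℝ}
    (ha : -1 < a) (hab : a < b) (hb : b < 1) : ∃ (g : ℝ → ℝ) (φ : Fm 4 X),
      (φ, 0) ∈ LS (𝓡 4) hT (sc0 n) ∧ Ph n g (ang (𝓡 3) u) φ ∧ (∀ t, 0 ≤ g t) ∧
      ∀ x ∉ n '' (univ ×ˢ Icc a b), φ x = 0 := by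
  let k : ℝ → ℝ := fun t => Real.smoothTransition ((t - a) / (b - a))
  have d : 0 < b - a := sub_pos.2 hab
  have hk : ContDiff ℝ ∞ k := Real.smoothTransition.contDiff.comp (by fun_prop)
  have ka : ∀ t ≤ a, k t = 0 := fun t ht =>
    Real.smoothTransition.zero_of_nonpos (div_nonpos_of_nonpos_of_nonneg (sub_nonpos.2 ht) d.le)
  have kb : ∀ t, b ≤ t → k t = 1 := fun t ht =>
    Real.smoothTransition.one_of_one_le ((one_le_div d).2 (sub_le_sub_right ht a))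
  obtain ⟨L, s, s', α, h1, -, h3, -, h5, h6⟩ := clutch hn hu hk hab.le ka kb
  have m : Mp (𝓡 3) (𝓡 4) univ (range n) (sc0 n) :=
    .of_contMDiff (cm_sc0 hn.contMDiff) fun _ _ => ⟨_, rfl⟩
  have z : support (deriv k) ⊆ Icc a b := fun t ht => by_contra fun c => ht (by
    rcases not_and_or.1 c with c | c
    · rw [EventuallyEq.deriv_eq (f := fun _ => 0)
        (mem_of_superset (Iio_mem_nhds (not_le.1 c)) fun x hx => ka x (le_of_lt hx)), deriv_const]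
    · rw [EventuallyEq.deriv_eq (f := fun _ => 1)
        (mem_of_superset (Ioi_mem_nhds (not_le.1 c)) fun x hx => kb x (le_of_lt hx)), deriv_const])
  refine ⟨deriv k, _, LS.mk h1 (hT.iso (L := triv 0) (on_triv Sm.zero Dg.zero)
    (h1.pull (m.mono subset_rfl (subset_univ _))) (h3.toUni.comp m) hT.one),
    ⟨(contDiff_infty_iff_deriv.1 hk).2, (closure_minimal z isClosed_Icc).trans
      (Icc_subset_Ioo ha hb), ?_, h5, fun x hx => h6 x fun c => hx (image_subset_range _ _ c)⟩,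
    fun t => Monotone.deriv_nonneg (Real.smoothTransition.monotone.comp fun x y h =>
      div_le_div_of_nonneg_right (sub_le_sub_right h a) d.le), h6⟩
  rw [← intervalIntegral.integral_eq_integral_of_support_subset (a := -1) (b := b)
    (z.trans (Icc_subset_Ioc_left ha)), intervalIntegral.integral_deriv_eq_sub
    (fun x _ => hk.differentiable ne0 x) ((hk.continuous_deriv (by simp)).intervalIntegrable _ _),
    kb b le_rfl, ka _ ha.le, sub_zero]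

theorem LS.scale {w : Fm 4 X} (a : (w, 1) ∈ LS (𝓡 4) hT (sc0 n)) (hβ : Z2 β)
    (h0 : ¬Ex (𝓡 3) univ β) : ∃ s : ℝ, s ≠ 0 ∧ Ex (𝓡 3) univ (pm (𝓡 3) (𝓡 4) (sc0 n) w - s • β) := by
  obtain ⟨_, _, L, a, rfl, t⟩ := a
  have m : Mp (𝓡 3) (𝓡 4) univ univ (sc0 n) := .of_contMDiff (cm_sc0 hn.contMDiff) (mapsTo_univ _ _)
  obtain ⟨s, s0, es⟩ := Lat93.scale hT (a.pull m) t hβ h0
  exact ⟨s, s0, es.congr fun y _ => by
    rw [Pi.sub_apply, Pi.sub_apply, a.F_pull isOpen_univ isOpen_univ m trivial]⟩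

/-- **`BB`** : `om (q, N)` are pairwise positive, in the class `w + N φ + η q`, where `w` is the
curvature of a line of type one and `φ` is the curvature of the line of the surface -/
theorem bb (h : BBR O n β τ) (hβ : Z2 β) (h0 : ¬Ex (𝓡 3) univ β) (hτ : Cl (𝓡 3) 1 univ τ)
    {u : Y → Circle} (hu : ContMDiff (𝓡 3) (𝓡 1) ∞ u) {c : ℝ} (hc : c ≠ 0)
    (e : Ex (𝓡 3) univ (τ - c • ang (𝓡 3) u)) {w₀ : Fm 4 X} (a : (w₀, 1) ∈ LS (𝓡 4) hT (sc0 n))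
    {ι : Type} [Finite ι] {η : ι → Fm 4 X} (hη : ∀ q, Z2 (η q))
    (eη : ∀ q, Ex (𝓡 3) univ (pm (𝓡 3) (𝓡 4) (sc0 n) (η q))) :
    ∃ u', (u' = u ∨ u' = u⁻¹) ∧ ∃ (w : Fm 4 X) (om : ι × ℕ → Fm 4 X) (φ₀ : Fm 4 X) (c₀ : ℝ),
      (w, 1) ∈ LS (𝓡 4) hT (sc0 n) ∧ (∀ z, Z2 (om z)) ∧ PP O om univ ∧ 0 < c₀ ∧ Z2 φ₀ ∧
      φ₀ * φ₀ = 0 ∧ (∀ z x, 0 ≤ rat O (om z * φ₀) x) ∧ ∀ g φ, Ph n g (ang (𝓡 3) u') φ →
        Ex (𝓡 4) univ (φ₀ - c₀ • φ) ∧
          ∀ z, Ex (𝓡 4) univ (om z - (w + (z.2 : ℝ) • φ + η z.1)) := by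
  obtain ⟨s, s0, es⟩ := LS.scale hn a hβ h0
  have h1 : ¬Ex (𝓡 3) univ (s • β) := fun k => h0 (by simpa [smul_smul, s0] using k.smul s⁻¹)
  replace h : ∃ (τ : Fm 3 Y) (c : ℝ), BBR O n (s • β) τ ∧ Cl (𝓡 3) 1 univ τ ∧ c ≠ 0 ∧
      Ex (𝓡 3) univ (τ - c • ang (𝓡 3) u) := by
    rcases s0.lt_or_gt with k | k
    · exact ⟨_, -c, BBR.smul_neg h k, hτ.neg, neg_ne_zero.2 hc, by
        rw [neg_smul, ← neg_sub']; exact e.neg⟩
    · exact ⟨_, c, BBR.smul h k, hτ, hc, e⟩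
  clear hτ e hc c
  obtain ⟨τ, c, H, hτ, hc, e⟩ := h
  wlog c0 : 0 < c generalizing u c
  · obtain ⟨u', k, r⟩ := this (u := u⁻¹) (fun y => CSm.inv (hu y)) _ (neg_ne_zero.2 hc) (by
      rwa [show ang (𝓡 3) u⁻¹ = -ang (𝓡 3) u from funext fun y => ang_inv (hu y), neg_smul_neg])
      (neg_pos.2 ((not_lt.1 c0).lt_of_ne hc))
    exact ⟨u', k.symm.imp_left (·.trans (inv_inv u)), r⟩
  obtain ⟨w, om, g, φ, k1, k2, k3, k4, k5, k6⟩ := lat H hn.contMDiff a es h1 hη eη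
  have k7 := fun g' φ' (k : Ph n g' (ang (𝓡 3) u) φ') => Ph.ex hn k5 k hτ (cl_ang fun y _ => hu y) e
  refine ⟨u, .inl rfl, w, fun z => om z.1 + (z.2 / c : ℝ) • φ, φ, c, k1,
    fun z => (k2 _).add ((Ph.z2 hn k5 hτ).smul _), pp_add hn (om := fun z : ι × ℕ => om z.1)
      (fun q r => k4 q.1 r.1) k5 hτ (fun z => k6 z.1) fun z => by positivity, c0, Ph.z2 hn k5 hτ,
    Ph.sq hn k5 k5 hτ.dg, fun z x => ?_, fun g' φ' k => ⟨k7 g' φ' k, fun z => ?_⟩⟩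
  · rw [add_mul, smul_mul_assoc, Ph.sq hn k5 k5 hτ.dg, smul_zero, add_zero]
    exact k6 _ x
  beta_reduce
  convert (k3 z.1).add ((k7 g' φ' k).smul (z.2 / c)) using 1
  rw [smul_sub, smul_smul, div_mul_cancel₀ _ hc]
  abel

end Crest.Agent.X212.Lat93
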