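import Crest.Agent.X212.Lat93.Main
import Crest.Agent.X212.Nov93.Pd
import Crest.Agent.X212.Eq82.Leaf
import Crest.Agent.X212.Orx52.Sw
import Crest.Agent.X212.Sep15.Lin

/-!
# X212 / Lat93, part Nv (helper93): the big ball property fed into `Eq82.NV`

* `ip_ph` : pairing with the dual of the surface;  `exists_one` : a line of type one on a join;
* `nv` : the counts of the lines in the classes `w + N φ`, `N` large.
-/

set_option autoImplicit false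
set_option linter.unusedSectionVars false

open Set Filter Topology Function
open scoped ContDiff Manifold Real
open Crest.Agent.R208.F Crest.Agent.X212.Dr59 Crest.Agent.X212.Int54 Crest.Agent.X212.Cyl58
  Crest.Agent.X212.Line51 Crest.Agent.X212.Bb31 Crest.Agent.X212.Eq82
open Crest.Agent.X212.Sep15 (EE IR CM End Jo EXT Pl)
open Crest.Agent.X212.Sym24 (pu dT)

noncomputable section

namespace Crest.Agent.X212.Lat93

variable {Y : CM 3} {X : CM 4} {O w w₀ φ : Fm 4 X} {n : Y × ℝ → X} {o β τ : Fm 3 Y} {g : ℝ → ℝ}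
  {T : Ty Y} {hT : Typ (𝓡 3) T}

theorem tp_sw (c : Ext (EE 3)) :
    tp (EE 3 × ℝ) (dT (EE 3) * Sym24.up c) = tp (EE 3 × ℝ) (xp (-c) (io LinearMap.id : Ext ℝ)) := by
  have e : dT (EE 3) * Sym24.up c = xp (inv c) (io LinearMap.id : Ext ℝ) := by
    rw [dT, io_mul, Sym24.up, ← pb_inv, xp, pb_io]; rfl
  rw [e, tp_xp, tp_xp, tp_inv]
  simp
  norm_num

/-- pairing with the dual of the surface -/
theorem ip_ph (hn : IsOE (IR 3) (𝓡 4) n) (hO : Ori (𝓡 4) O) (ho : Ori (𝓡 3) o) (hc : Cy o O n)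
    (h : Ph n g τ φ) (hτ : Cl (𝓡 3) 1 univ τ) (hw : Z2 w) :
    integ (𝓡 4) O (w * φ) = integ (𝓡 3) o (pm (𝓡 3) (𝓡 4) (sc0 n) w * τ) := by
  have m : Mp (IR 3) (𝓡 4) univ univ n := .of_contMDiff hn.contMDiff (mapsTo_univ _ _)
  have mf : Mp (IR 3) (𝓡 3) univ univ (Prod.fst : Y × ℝ → Y) :=
    ⟨fun _ _ => contMDiffAt_fst, mapsTo_univ _ _⟩
  obtain ⟨h1, h2⟩ := Nov93.ex_sl (hw.pm m)
  have e : sl (𝓡 3) 𝓘(ℝ, ℝ) 0 (pm (IR 3) (𝓡 4) n w) = pm (𝓡 3) (𝓡 4) (sc0 n) w :=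
    (Sym24.pm_inl _ _).trans (sl_pm hn.contMDiff w)
  rw [e] at h1 h2
  have cs : Cs (IR 3) 2 univ (pm (IR 3) (𝓡 4) n φ) := ⟨(Ph.z2 hn h hτ).pm m,
    .intro (isCompact_univ.prod (isCompact_Icc (a := (-1 : ℝ)) (b := 1))) fun p hp => by
      rw [h.eq, Ph.zero h fun k => hp ⟨trivial, Ioo_subset_Icc_self k⟩, zero_smul], subset_univ _⟩
  rw [integ_map (by simp) hO ho.neg.cy hn.contMDiff hn.inj (fun p _ => by
      rw [mul_comm, Int54.cy, pr, Pi.neg_apply, dt, ← tp_sw]; exact hc p trivial)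
    (fun x hx => by rw [Pi.mul_apply, h.off x hx, mul_zero, map_zero]), pm_mul, ← ip,
    cs.ip_coh ho.neg.cy (hw.pm m).sm (h1.pm mf).sm h2, ip, integ_congr
      (b := pr (-(pm (𝓡 3) (𝓡 4) (sc0 n) w * τ)) (g • dt)) fun p => ?_,
    integ_pr ho.neg.cd ori_dt.cd, ← integOn_univ dt, integOn_dt, MeasureTheory.Measure.restrict_univ,
    h.one, mul_one, integ_neg, integ_neg_ori, neg_neg]
  rw [Pi.mul_apply, h.eq, Sym24.pm_fst, mul_smul_comm, ← mul_assoc, pu,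
    ← Sym24.comm2 (Sym24.isDeg_up (h1.dg _ trivial)), mul_assoc, pu, ← map_mul, map_smul, tp_sw,
    tp_pr, tp_xp, Pi.smul_apply', map_smul, smul_eq_mul, smul_eq_mul]
  simp only [dt, Pi.neg_apply, Pi.mul_apply]
  ring

/-- a line of type one on the join of two caps -/
theorem exists_one {C₁ C₂ : End Y} (J : Jo C₁ C₂ X) (h₁ : EXT Y C₁) (h₂ : EXT Y C₂) {κ : Type}
    [Fintype κ] {l : Y → Matrix κ κ ℂ} (hl : Pl (𝓡 3) l univ) {j : ℤ} (t : T κ l j) :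
    ∃ w, (w, j) ∈ LS (𝓡 4) hT (sc0 (J.i₁ ∘ C₁.j)) := by
  obtain ⟨_, _, Q, u, k1, k2⟩ := Sep15.exists_jo J (h₁ κ l hl) (h₂ κ l hl)
  exact ⟨_, LS.mk k1.on (hT.iso hl.on (k1.comp (Sep15.mp_univ (cm_sc0
    (J.o₁.contMDiff.comp C₁.oe.contMDiff)))).on (k2.comp (f := fun y => (y, 0))
      (Sep15.mp_univ (contMDiff_id.prodMk contMDiff_const))) t)⟩

variable {E : Type} [NormedAddCommGroup E] [NormedSpace ℝ E] [FiniteDimensional ℝ E]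
  [MeasurableSpace E] [BorelSpace E]
  {HM : Type} [TopologicalSpace HM] {I : ModelWithCorners ℝ E HM} [I.Boundaryless]
  {M : Type} [TopologicalSpace M] [ChartedSpace HM M] [IsManifold I ∞ M]
  [MeasurableSpace M] [BorelSpace M] [SecondCountableTopology M] [T2Space M] [CompactSpace M]
  {ι : Type} [Fintype ι] [DecidableEq ι] (ψ : M ≃ₘ^∞⟮I, 𝓡 4⟯ X) {a b : Fm 4 X}

/-- the pull-back divided by `2π` -/
def fm (a : Fm 4 X) : M → Ext E := (2 * π)⁻¹ • pm I (𝓡 4) ψ a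

theorem mpψ : Mp I (𝓡 4) univ univ ψ := .of_contMDiff ψ.contMDiff (mapsTo_univ _ _)

theorem cl_fm (h : Z2 a) : Cl I 2 univ (fm ψ a) := (h.pm (mpψ ψ)).smul _

/-- the map on classes -/
def sm : H2 (𝓡 4) X →ₗ[ℝ] H2 I M := (2 * π)⁻¹ • (mpψ ψ).st 2

theorem cl2_fm (h : Z2 a) : cl2 I (fm ψ a) = sm ψ h.cls :=
  (dif_pos (cl_fm ψ h)).trans (cls_smul _ (h.pm (mpψ ψ)))

theorem lcl_of {κ : Type} [Fintype κ] {L : Ln E M κ} (hL : L.On I univ) (h : Z2 a)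
    (e : Ex I univ (L.F I - pm I (𝓡 4) ψ a)) : lcl I L = sm ψ h.cls :=
  congrArg ((2 * π)⁻¹ • ·) ((dif_pos (hL.cl_F isOpen_univ)).trans
    ((cls_eq (h' := h.pm (mpψ ψ))).2 e))

theorem LS.line {f : Y → X} {j : ℤ} (h : (a, j) ∈ LS (𝓡 4) hT f) : ∃ (κ : Type) (_ : Fintype κ)
    (_ : DecidableEq κ) (L : Ln E M κ), L.On I univ ∧ sm ψ (LS.cl h).cls = lcl I L := by
  classical
  obtain ⟨κ, _, L, k, rfl, -⟩ := id h
  exact ⟨κ, _, inferInstance, _, k.pull (mpψ ψ), (lcl_of ψ (k.pull (mpψ ψ)) _ (ex_of_zero fun x _ =>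
    sub_eq_zero.2 (k.F_pull isOpen_univ isOpen_univ (mpψ ψ) trivial))).symm⟩

variable {B : Bk I M ι} (hO : Ori (𝓡 4) O)
  (hs : SameOn (Num57.vol B.F B.o) (pm I (𝓡 4) ψ O) univ)
include hO hs

theorem Q_sm (h : Z2 a) (h' : Z2 b) :
    B.Q (sm ψ h.cls) (sm ψ h'.cls) = (2 * π)⁻¹ ^ 2 * integ (𝓡 4) O (a * b) := by
  rw [← Num57.Q_cls hO h h', ← Num57.Q_st (by simp [B.ok.h4]) hO B.ok.ori (mpψ ψ) ψ.bijective hs]
  simp only [sm, Bk.Q, LinearMap.smul_apply, map_smul, smul_eq_mul]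
  ring

theorem rat_fm (a b : Fm 4 X) (x : M) : ∃ c > 0,
    rat (Num57.vol B.F B.o) (fm ψ a * fm ψ b) x = c * rat O (a * b) (ψ x) := by
  refine ⟨(2 * π)⁻¹ * (2 * π)⁻¹ * rat _ _ x, mul_pos (by positivity) (hs.rat_pos trivial), ?_⟩
  rw [fm, fm, smul_mul_smul_comm, rat_smul, ← pm_mul, Pi.smul_apply, smul_eq_mul, mul_assoc _ (rat ..),
    ← rat_pm (by simp [B.ok.h4]) (jac_of_ld (ψ.isLocalDiffeomorph x)),
    rat_mul_rat (right_ne_zero_of_mul (hs x trivial).ne')]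

/-- **`NV` for the closed manifold with the big ball property** -/
theorem nv (hn : IsOE (IR 3) (𝓡 4) n) (ho : Ori (𝓡 3) o) (hc : Cy o O n) {u : Y → Circle}
    (hu : ContMDiff (𝓡 3) (𝓡 1) ∞ u) (h : BBR O n β (ang (𝓡 3) u)) (hβ : Z2 β)
    (hi : integ (𝓡 3) o (β * ang (𝓡 3) u) ≠ 0) (a : (w₀, 1) ∈ LS (𝓡 4) hT (sc0 n)) (hN : NV B) :
    ∃ u', (u' = u ∨ u' = u⁻¹) ∧ ∃ w, (w, 1) ∈ LS (𝓡 4) hT (sc0 n) ∧
      0 < integ (𝓡 3) o (pm (𝓡 3) (𝓡 4) (sc0 n) w * ang (𝓡 3) u') ∧ ∃ (K₀ : H2 I M) (N₀ : ℕ),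
      ∀ N ≥ N₀, ∀ g φ, Ph n g (ang (𝓡 3) u') φ → ∀ (κ : Type) [Fintype κ] [DecidableEq κ]
        (L : Ln E M κ), L.On I univ → Ex I univ (L.F I - pm I (𝓡 4) ψ (w + (N : ℝ) • φ)) →
        Cnt B L K₀ ∧ 0 < B.Q (K₀ - lcl I L) (K₀ - lcl I L) ∧
          ∃ j : ℕ, 6 * (-B.Q (K₀ - lcl I L) (K₀ - lcl I L) / 4) + B.d0 L + 2 * j = 0 := by
  obtain ⟨K, s, hK, -, hev, ρ, hφ⟩ := hN
  have hι := cm_sc0 hn.contMDiff
  have m : Mp (𝓡 3) (𝓡 4) univ univ (sc0 n) := .of_contMDiff hι (mapsTo_univ _ _)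
  have cu : Cl (𝓡 3) 1 univ (ang (𝓡 3) u) := cl_ang fun y _ => hu y
  have h0 : ¬Ex (𝓡 3) univ β := fun k => hi (Num57.integ_ex ho (k.mul_cl cu))
  obtain ⟨k, b, hb, sp⟩ := gens0 hι a
  let η : Option (Fin k × Bool) → Fm 4 X := fun z => z.elim 0 fun z => (if z.2 then ρ else -ρ) • b z.1
  have hη : ∀ z, Z2 (η z) ∧ Ex (𝓡 3) univ (pm (𝓡 3) (𝓡 4) (sc0 n) (η z)) := by
    rintro (_ | z)
    · exact ⟨Cl.zero, by simpa [η] using Ex.zero⟩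
    · exact ⟨(LS.cl (hb _)).smul _, by
        simpa only [η, Option.elim, pm_smul] using (LS.ex0 hι (hb _)).smul _⟩
  obtain ⟨u', hu', w, om, φ₀, c, k1, k2, k3, k4, k5, k6, k7, k8⟩ := bb hn h hβ h0 cu hu one_ne_zero
    (by simpa using Ex.zero) a (fun z => (hη z).1) fun z => (hη z).2
  obtain ⟨su, cu', hi⟩ : ContMDiff (𝓡 3) (𝓡 1) ∞ u' ∧ Cl (𝓡 3) 1 univ (ang (𝓡 3) u') ∧
      integ (𝓡 3) o (β * ang (𝓡 3) u') ≠ 0 := by
    rcases hu' with rfl | rfl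
    · exact ⟨hu, cu, hi⟩
    · rw [show ang (𝓡 3) u⁻¹ = -ang (𝓡 3) u from funext fun y => ang_inv (hu y), mul_neg, integ_neg]
      exact ⟨fun y => CSm.inv (hu y), cu.neg, neg_ne_zero.2 hi⟩
  obtain ⟨g₁, φ₁, -, p₁, -⟩ := exists_dual hn hT su (a := -2⁻¹) (b := 2⁻¹) (by norm_num)
    (by norm_num) (by norm_num)
  have z := fun {g φ} (p : Ph n g (ang (𝓡 3) u') φ) => Ph.z2 hn p cu'
  obtain ⟨Φ, eΦ⟩ : ∃ Φ, ∀ g φ (p : Ph n g (ang (𝓡 3) u') φ), sm ψ (z p).cls = Φ :=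
    ⟨_, fun g φ p => congrArg _ (cls_eq.2 (by simpa using Ph.ex hn p p₁ cu' cu' (c := 1) (by
      simpa using Ex.zero)) : _ = (z p₁).cls)⟩
  have e0 : cl2 I (fm ψ φ₀) = c • Φ := by
    rw [cl2_fm ψ k5, (cls_eq (h' := (z p₁).smul c)).2 (k8 _ _ p₁).1, cls_smul _ (z p₁), map_smul, eΦ _ _ p₁]
  have eQ : ∀ {a} (h : Z2 a), B.Q (sm ψ h.cls) Φ = (2 * π)⁻¹ ^ 2 *
      integ (𝓡 3) o (pm (𝓡 3) (𝓡 4) (sc0 n) a * ang (𝓡 3) u') := fun h => by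
    rw [← eΦ _ _ p₁, Q_sm ψ hO hs, ip_ph hn hO ho hc p₁ cu' h]
  have ne : ∀ {w} (a : (w, 1) ∈ LS (𝓡 4) hT (sc0 n)), B.Q (sm ψ (LS.cl a).cls) Φ ≠ 0 := fun a => by
    obtain ⟨s, s0, es⟩ := LS.scale hn a hβ h0
    have := Num57.integ_ex ho (es.mul_cl cu')
    rw [sub_mul, integ_sub (Num57.intOn_sm ho (((LS.cl a).pm m).mul cu').sm)
      (Num57.intOn_sm ho ((hβ.smul s).mul cu').sm), smul_mul_assoc, integ_smul, sub_eq_zero] at this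
    rw [eQ, this]
    exact mul_ne_zero (by positivity) (mul_ne_zero s0 hi)
  have ΦΦ : B.Q Φ Φ = 0 := by
    rw [← eΦ _ _ p₁, Q_sm ψ hO hs, Ph.sq hn p₁ p₁ cu'.dg, Num57.integ_ex hO Ex.zero, mul_zero]
  obtain ⟨Λ, eΛ⟩ : ∃ Λ, sm ψ (LS.cl k1).cls = Λ := ⟨_, rfl⟩
  have e1 : ∀ z, cl2 I (fm ψ (om z)) = Λ + (z.2 : ℝ) • Φ + sm ψ (hη z.1).1.cls := fun y => by
    rw [cl2_fm ψ (k2 y), (cls_eq (h' := ((LS.cl k1).add ((z p₁).smul _)).add (hη _).1)).2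
      ((k8 _ _ p₁).2 y), cls_add ((LS.cl k1).add ((z p₁).smul _)) (hη _).1, cls_add (LS.cl k1) ((z p₁).smul _),
      cls_smul _ (z p₁),
      map_add, map_add, map_smul, eΦ _ _ p₁, eΛ]
  have e2 : ∀ N : ℕ, cl2 I (fm ψ (om (none, N))) = Λ + (N : ℝ) • Φ := fun N => by
    rw [e1, show (hη none).1.cls = 0 from cls_zero, map_zero, add_zero]
  have ps := fun y y' x => let ⟨_, h, e⟩ := rat_fm ψ hO hs (om y) (om y') x
    (mul_pos h (k3 y y' _ trivial)).trans_eq e.symm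
  have sy : ∀ y y', B.Sy (fm ψ (om y)) (fm ψ (om y')) := fun y y' =>
    ⟨cl_fm ψ (k2 y), cl_fm ψ (k2 y'), ps y y, ps y' y', fun x => (ps y y' x).le⟩
  have nn := fun y x => let ⟨_, h, e⟩ := rat_fm ψ hO hs (om y) φ₀ x
    (mul_nonneg h.le (k7 y _)).trans_eq e.symm
  obtain ⟨f1, f2⟩ := hφ _ (cl_fm ψ k5) (by rw [fm, smul_mul_smul_comm, ← pm_mul, k6]; simp)
  obtain ⟨K₀, eK⟩ : ∃ K₀, ∀ y, K (fm ψ (om y)) = K₀ := ⟨_, fun y => hK _ _ (sy y (none, 0))⟩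
  have kφ : B.Q K₀ Φ ≤ 0 := by
    obtain ⟨κ, _, _, L, l1, l2⟩ := LS.line ψ k1
    have := f1 κ L l1 _ (sy (none, 0) _) (by rw [e2, ← l2, eΛ]; simp) (nn _)
    rw [eK, e0, map_smul, smul_eq_mul] at this
    exact nonpos_of_mul_nonpos_right this k4
  have p0 : 0 < B.Q Λ Φ := by
    refine lt_of_le_of_ne (nonneg_of_mul_nonneg_right (?_ : 0 ≤ c * _) k4) (eΛ ▸ ne k1).symm
    have : 0 ≤ B.Q (cl2 I (fm ψ (om (none, 0)))) (cl2 I (fm ψ φ₀)) := by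
      rw [cl2_fm ψ (k2 _), cl2_fm ψ k5, Q_sm ψ hO hs]
      exact mul_nonneg (sq_nonneg _) (MeasureTheory.integral_nonneg (k7 _))
    simpa [e2, e0] using this
  have sy' := Num57.Q_symm B.ok.ori
  have spn : ∀ e, (∀ q, B.Q (sm ψ (LS.cl (hb q)).cls) e = 0) → ∃ r : ℝ, e = r • cl2 I (fm ψ φ₀) := by
    refine fun e he => ⟨B.Q (sm ψ (LS.cl a).cls) e / (B.Q (sm ψ (LS.cl a).cls) Φ * c),
      sub_eq_zero.1 (B.ok.Q_nondeg fun y => (sy' _ _).trans ?_)⟩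
    obtain ⟨y', rfl⟩ : ∃ y', sm ψ y' = y := let ⟨y', h⟩ := (Num57.st_bij ψ 2).2 y
      ⟨(2 * π) • y', by rw [sm, LinearMap.smul_apply, map_smul, h, inv_smul_smul₀ (by positivity)]⟩
    obtain ⟨v, hv, rfl⟩ := exists_cls y'
    obtain ⟨t, s, ht⟩ := sp v hv
    have z0 : ∀ q, B.Q (sm ψ (LS.cl (hb q)).cls) Φ = 0 := fun q => by
      rw [eQ, Num57.integ_ex ho ((LS.ex0 hι (hb q)).mul_cl cu'), mul_zero]
    change B.Q _ _ = 0
    rw [(cls_eq (h' := (cl_sum fun i _ => (LS.cl (hb i)).smul (t i)).add ((LS.cl a).smul s))).2 ht,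
      cls_add (cl_sum fun i _ => (LS.cl (hb i)).smul (t i)) ((LS.cl a).smul s),
      cls_sum fun i => (LS.cl (hb i)).smul (t i), cls_smul _ (LS.cl a)]
    simp only [cls_smul _ (LS.cl (hb _)), e0, map_add, map_sum, map_smul, map_sub, he, z0,
      LinearMap.add_apply, LinearMap.sum_apply, LinearMap.smul_apply, smul_eq_mul, mul_zero,
      Finset.sum_const_zero, zero_add]
    field_simp [ne a, k4.ne']
    ring
  obtain ⟨D, eD⟩ : ∃ D, ∀ (κ : Type) [Fintype κ] [DecidableEq κ] (L : Ln E M κ),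
      B.d0 L = B.Q (lcl I L) (lcl I L) / 2 + D := ⟨_, fun κ _ _ L => by
    rw [Bk.d0, sub_div, sub_sub, sub_eq_add_neg]⟩
  obtain ⟨N₀, hN₀⟩ := exists_nat_gt ((|B.Q (K₀ - Λ) (K₀ - Λ)| +
    |B.Q Λ Λ / 2 + D - 3 / 2 * B.Q (K₀ - Λ) (K₀ - Λ)|) / B.Q Λ Φ)
  refine ⟨u', hu', w, k1, pos_of_mul_pos_right (eQ (LS.cl k1) ▸ eΛ ▸ p0) (sq_nonneg _), K₀, N₀,
    fun N hN g φ p κ _ _ L hL e => ?_⟩
  have eL : lcl I L = Λ + (N : ℝ) • Φ := by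
    rw [lcl_of ψ hL ((LS.cl k1).add ((z p).smul _)) e, cls_add (LS.cl k1) ((z p).smul _),
      cls_smul _ (z p), map_add, map_smul, eΦ _ _ p, eΛ]
  have q1 : B.Q (K₀ - lcl I L) (K₀ - lcl I L) =
      B.Q (K₀ - Λ) (K₀ - Λ) + 2 * (N * B.Q Λ Φ) - 2 * (N * B.Q K₀ Φ) := by
    simp only [eL, map_sub, map_add, map_smul, LinearMap.sub_apply, LinearMap.add_apply,
      LinearMap.smul_apply, smul_eq_mul, ΦΦ, show B.Q Φ K₀ = B.Q K₀ Φ from sy' _ _,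
      show B.Q Φ Λ = B.Q Λ Φ from sy' _ _]
    ring
  have q2 : B.Q (lcl I L) (lcl I L) = B.Q Λ Λ + 2 * (N * B.Q Λ Φ) := by
    simp only [eL, map_add, map_smul, LinearMap.add_apply, LinearMap.smul_apply, smul_eq_mul, ΦΦ,
      show B.Q Φ Λ = B.Q Λ Φ from sy' _ _]
    ring
  have q3 := ((div_lt_iff₀ p0).1 hN₀).trans_le
    (mul_le_mul_of_nonneg_right (Nat.cast_le.2 hN) p0.le)
  have q4 := mul_nonpos_of_nonneg_of_nonpos (Nat.cast_nonneg (α := ℝ) N) kφ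
  have q5 := neg_abs_le (B.Q (K₀ - Λ) (K₀ - Λ))
  have q6 := le_abs_self (B.Q Λ Λ / 2 + D - 3 / 2 * B.Q (K₀ - Λ) (K₀ - Λ))
  have q7 := abs_nonneg (B.Q (K₀ - Λ) (K₀ - Λ))
  have q8 := abs_nonneg (B.Q Λ Λ / 2 + D - 3 / 2 * B.Q (K₀ - Λ) (K₀ - Λ))
  have pos : 0 < B.Q (K₀ - lcl I L) (K₀ - lcl I L) := by rw [q1]; linarith
  refine ⟨eK (none, N) ▸ f2 k _ (fun q => AddSubgroup.subset_closure (LS.line ψ (hb q))) spn κ L hL _ ρ
    le_rfl (sy _ _) (eL ▸ e2 N) (nn _) ?_ (fun q => ⟨_, sy _ (some (q, true), N), ?_⟩)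
    (fun q => ⟨_, sy _ (some (q, false), N), ?_⟩) (by rw [eK]; exact pos), pos, ?_⟩
  · simp only [eL, e0, map_add, map_smul, LinearMap.add_apply, LinearMap.smul_apply, smul_eq_mul, ΦΦ]
    simpa using mul_pos k4 p0
  · rw [e1, eL, ← map_smul, ← cls_smul]; rfl
  · rw [e1, eL, sub_eq_add_neg, ← neg_smul, ← map_smul, ← cls_smul]; rfl
  · obtain ⟨j, hj⟩ := hev _ (sy (none, N) _) κ L hL
    rw [eK] at hj
    have : 0 ≤ -j := by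
      rw [q1, eD, q2] at hj
      exact_mod_cast (show (0 : ℝ) ≤ -j by linarith)
    exact ⟨(-j).toNat, by
      rw [← Int.cast_natCast, Int.toNat_of_nonneg this, Int.cast_neg]; linarith⟩

end Crest.Agent.X212.Lat93
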