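import Crest.Agent.X212.Weil93.Main
import Crest.Agent.X212.Pic56.Smo

/-!
# X212 / Lat93, part Typ (helper93): lines with a type along `ι : Y → X`

* `Typ I T` : `T` presents `Pic Y` as a quotient of `ℤ`;  `typ_fill` : the instance for a Dehn filling;
* `LS T ι` : the group of pairs (curvature of a line on `X`, type of its restriction);
* `gens0`, `scale`, `gens`.
-/

set_option autoImplicit false
set_option linter.unusedSectionVars false

open Set Filter Topology Function Matrix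
open scoped ContDiff Manifold Kronecker
open Crest.Agent.R208 Crest.Agent.R208.F Crest.Agent.X212.Dr59 Crest.Agent.X212.Pj41
  Crest.Agent.X212.Line51

noncomputable section

namespace Crest.Agent.X212.Lat93

variable {E : Type*} [NormedAddCommGroup E] [NormedSpace ℝ E] [FiniteDimensional ℝ E]
  {H : Type*} [TopologicalSpace H] {I : ModelWithCorners ℝ E H}
  {Y : Type*} [TopologicalSpace Y] [ChartedSpace H Y] [I.Boundaryless] [IsManifold I ∞ Y]
  {E' : Type*} [NormedAddCommGroup E'] [NormedSpace ℝ E'] [FiniteDimensional ℝ E']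
  {H' : Type*} [TopologicalSpace H'] {J : ModelWithCorners ℝ E' H'}
  {X : Type*} [TopologicalSpace X] [ChartedSpace H' X] [J.Boundaryless] [IsManifold J ∞ X]

/-- integer valued types of projector fields -/
abbrev Ty (Y : Type*) := ∀ (κ : Type) [Fintype κ], (Y → Matrix κ κ ℂ) → ℤ → Prop

variable (I) in
/-- the type classifies the lines on `Y` -/
structure Typ (T : Ty Y) : Prop where
  ex : ∀ {κ : Type} [Fintype κ] {L : Ln E Y κ}, L.On I univ → ∃ j, T κ L.p j
  tens : ∀ {κ l : Type} [Fintype κ] [Fintype l] {p q j j'}, T κ p j → T l q j' →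
    T (κ × l) (fun y => p y ⊗ₖ q y) (j + j')
  dual : ∀ {κ : Type} [Fintype κ] {p j}, (∀ y, Prj (p y)) → T κ p j → T κ (fun y => (p y)ᵀ) (-j)
  uni : ∀ {κ l : Type} [Fintype κ] [Fintype l] {L : Ln E Y κ} {L' : Ln E Y l} {j}, L.On I univ →
    L'.On I univ → T κ L.p j → T l L'.p j → ∃ u, Uni I L.p L'.p u univ
  iso : ∀ {κ l : Type} [Fintype κ] [Fintype l] {L : Ln E Y κ} {L' : Ln E Y l} {j u}, L.On I univ →
    L'.On I univ → Uni I L.p L'.p u univ → T κ L.p j → T l L'.p j
  one : T Unit (fun _ => 1) 0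

open Crest.GeometryTopology.DehnSurgery Ext52 Pic56 in
/-- the types of `Pic56` on a Dehn filling, seen through a diffeomorphism -/
theorem typ_fill {k : KD} {σ : FillingData} (f : Y ≃ₘ^∞⟮I, 𝓡 3⟯ Fill k.toTube σ) :
    Typ I fun κ _ (p : Y → Matrix κ κ ℂ) j =>
      (by classical exact FType k.toTube σ (fun y => p (f.symm y)) j) := by
  classical
  have r : ∀ {κ : Type} [Fintype κ] {L : Ln E Y κ}, L.On I univ → ∀ y, Rk1 (L.p (f.symm y)) :=
    fun h y => Rk1.of_trace (h.prj _ trivial).herm (h.prj _ trivial).idem (h.tr _ trivial)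
  have s : ∀ {κ : Type} [Fintype κ] {L : Ln E Y κ}, L.On I univ →
      ∀ y, MSm (𝓡 3) (fun y => L.p (f.symm y)) y :=
    fun h y => (h.sm _ trivial).comp (f.symm.contMDiff y)
  refine ⟨fun h => exists_ftype (CLine.of_msm (s h) (r h)), fun h h' => by convert h.kron h',
    fun hp h => ?_, fun h h' t t' => ?_, fun h h' u t => ?_, ?_⟩
  · convert h.conj using 2 with y
    ext i j
    exact (congrFun (congrFun (hp _).herm j) i).symm
  · obtain ⟨u, hu⟩ := t.liso (s h) (s h') (r h) (r h') t' (by simp)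
    exact ⟨fun y => u (f y), fun y _ => (hu.sm _).comp (f.contMDiff y), fun y _ =>
      PIso.of_prj (h.prj y trivial).idem (by simpa using hu.left (f y)) (by simpa using hu.right (f y))⟩
  · refine t.of_hom (r h) (r h') (continuous_iff_continuousAt.2 fun y =>
      ((u.sm _ trivial).comp (f.symm.contMDiff y)).continuousAt) (fun y => ?_) fun y e => ?_
    · rw [(u.iso _ trivial).left, (u.iso _ trivial).idem]
    · have := (r h y).trace_eq
      rw [← (u.iso _ trivial).src, e] at this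
      simp at this
  · convert FType.of_frame (t := k.toTube) (σ := σ) (p := fun _ => (1 : Matrix Unit Unit ℂ))
      (s := fun _ _ => 1) ⟨continuousOn_const, fun _ _ => by simp, fun _ _ h => by
        simpa using congrFun h ()⟩

variable {T : Ty Y} {ι : Y → X}

variable (J) in
/-- curvature and type of the lines on `X` -/
def LS (h : Typ I T) (ι : Y → X) : AddSubgroup ((X → Ext E') × ℤ) where
  carrier := {z | ∃ (κ : Type) (_ : Fintype κ) (L : Ln E' X κ), L.On J univ ∧ L.F J = z.1 ∧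
    T κ (fun y => L.p (ι y)) z.2}
  add_mem' := fun ⟨_, _, L, a, b, c⟩ ⟨_, _, L', a', b', c'⟩ => ⟨_, _, L.tens L', a.tens a',
    funext fun x => by rw [a.F_tens isOpen_univ a' trivial, b, b']; rfl, h.tens c c'⟩
  zero_mem' := ⟨_, _, triv 0, on_triv Sm.zero Dg.zero,
    funext fun x => by rw [F_triv isOpen_univ Sm.zero Dg.zero trivial, dM_zero]; rfl, h.one⟩
  neg_mem' := fun ⟨_, _, L, a, b, c⟩ => ⟨_, _, L.dual, a.dual,
    funext fun x => by rw [a.F_dual isOpen_univ trivial, b]; rfl,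
    h.dual (fun _ => a.prj _ trivial) c⟩

variable {h : Typ I T} {w w' : X → Ext E'} {j : ℤ}

theorem LS.cl (a : (w, j) ∈ LS J h ι) : Cl J 2 univ w :=
  let ⟨_, _, _, a, b, _⟩ := a
  (show _ = w from b) ▸ a.cl_F isOpen_univ

theorem LS.mk {κ : Type} [Fintype κ] {L : Ln E' X κ} (a : L.On J univ)
    (b : T κ (fun y => L.p (ι y)) j) : (L.F J, j) ∈ LS J h ι := ⟨κ, _, L, a, rfl, b⟩

/-- the connection may be changed -/
theorem LS.shift (a : (w, j) ∈ LS J h ι) (c : Dg 2 univ w') (e : Ex J univ (w' - w)) :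
    (w', j) ∈ LS J h ι := by
  obtain ⟨b, b1, b2, b3⟩ := e.deg (k := 1) (c.sub (LS.cl a).dg)
  obtain ⟨κ, _, L, a, rfl, t⟩ := a
  exact ⟨κ, _, L.shift b, a.shift b1 b2, funext fun x => by
    rw [a.F_shift isOpen_univ b1 trivial, b3 x trivial]; simp, t⟩

variable (hι : ContMDiff I J ∞ ι)
include hι

theorem LS.ex (a : (w, j) ∈ LS J h ι) (a' : (w', j) ∈ LS J h ι) :
    Ex I univ (pm I J ι w' - pm I J ι w) := by
  obtain ⟨_, _, L, a, rfl, c⟩ := a
  obtain ⟨_, _, L', a', rfl, c'⟩ := a'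
  have m : Mp I J univ univ ι := .of_contMDiff hι (mapsTo_univ _ _)
  obtain ⟨u, hu⟩ := h.uni (a.pull m) (a'.pull m) c c'
  refine (hu.ex_F isOpen_univ (a.pull m) (a'.pull m)).congr fun y _ => ?_
  rw [Pi.sub_apply, Pi.sub_apply, a.F_pull isOpen_univ isOpen_univ m trivial,
    a'.F_pull isOpen_univ isOpen_univ m trivial]

theorem LS.ex0 (a : (w, 0) ∈ LS J h ι) : Ex I univ (pm I J ι w) := by
  simpa using LS.ex hι (w := 0) (zero_mem (LS J h ι)) a

variable [T2Space X] [CompactSpace X] {w₀ : X → Ext E'}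

theorem gens0 (a : (w₀, 1) ∈ LS J h ι) : ∃ (m : ℕ) (b : Fin m → X → Ext E'),
    (∀ i, (b i, 0) ∈ LS J h ι) ∧ ∀ w, Cl J 2 univ w →
      ∃ (t : Fin m → ℝ) (s : ℝ), Ex J univ (w - (∑ i, t i • b i + s • w₀)) := by
  obtain ⟨n, m, L, hL, hs⟩ := Weil93.weil J X
  choose j hj using fun i => h.ex ((hL i).pull (.of_contMDiff hι (mapsTo_univ _ _)))
  refine ⟨m, fun i => (L i).F J - j i • w₀, fun i => ?_, fun w hw => ?_⟩
  · simpa using sub_mem (LS.mk (h := h) (hL i) (hj i)) (zsmul_mem a (j i))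
  · obtain ⟨t, ht⟩ := hs w hw
    refine ⟨t, ∑ i, t i * j i, ?_⟩
    simpa only [smul_sub, Finset.sum_sub_distrib, Finset.sum_smul, mul_smul,
      Int.cast_smul_eq_zsmul, sub_add_cancel] using ht

/-- lines which are trivial on `Y` span the classes which vanish on `Y` -/
theorem gens (a : (w₀, 1) ∈ LS J h ι) (h0 : ¬Ex I univ (pm I J ι w₀)) :
    ∃ (m : ℕ) (b : Fin m → X → Ext E'), (∀ i, (b i, 0) ∈ LS J h ι) ∧ ∀ w, Cl J 2 univ w →
      Ex I univ (pm I J ι w) → ∃ t : Fin m → ℝ, Ex J univ (w - ∑ i, t i • b i) := by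
  obtain ⟨m, b, hb, hs⟩ := gens0 hι a
  refine ⟨m, b, hb, fun w hw e => ?_⟩
  obtain ⟨t, s, ht⟩ := hs w hw
  have k := (e.sub (ht.pm (.of_contMDiff hι (mapsTo_univ _ _)))).sub
    (ex_sum (s := Finset.univ) fun i _ => (LS.ex0 hι (hb i)).smul (t i))
  simp only [pm_sub, pm_add, pm_sum, pm_smul, sub_sub_cancel, add_sub_cancel_left] at k
  obtain rfl : s = 0 := by_contra fun hs => h0 (by simpa [smul_smul, hs] using k.smul s⁻¹)
  exact ⟨t, by simpa using ht⟩

omit hι in
/-- a line of type one has the class of any non-trivial form, up to a factor -/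
theorem scale [T2Space Y] [CompactSpace Y] (h : Typ I T) {κ : Type} [Fintype κ] {L : Ln E Y κ}
    (a : L.On I univ) (t : T κ L.p 1) {β : Y → Ext E} (hβ : Cl I 2 univ β) (h0 : ¬Ex I univ β) :
    ∃ s : ℝ, s ≠ 0 ∧ Ex I univ (L.F I - s • β) := by
  obtain ⟨m, b, hb, hs⟩ := gens0 (h := h) contMDiff_id (LS.mk (ι := id) a t)
  obtain ⟨t, s, ht⟩ := hs β hβ
  have k := ht.add (ex_sum (s := Finset.univ) fun i _ => (LS.ex0 contMDiff_id (hb i)).smul (t i))
  simp only [pm_id, ← sub_sub, sub_right_comm β, sub_add_cancel] at k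
  have hs : s ≠ 0 := fun e => h0 (by simpa [e] using k)
  exact ⟨s⁻¹, inv_ne_zero hs, by simpa [smul_sub, smul_smul, hs] using k.symm.smul s⁻¹⟩

end Crest.Agent.X212.Lat93
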